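import Vale.Agent.P365.T2.H536.Start2
import Vale.Agent.P365.H763.Cmp
import Vale.Agent.P365.V4.Inst

/-!
# P365-T2, passage of the local energies, part 1: moments at the start of any stage

`thJ D j = ∏_{k<j} t_k`.  Pointwise `thJ (us 0 + Ws 0) ≤ us j + Ws j ≤ us 0 + Ws 0`, hence
(763's deterministic comparison and 536's START) all moments of the energy of a block at the start
of the stage `j` are finite, with a constant which depends on `thJ D j` only.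
-/

set_option linter.all false

namespace P365T2.H168

open Finset MeasureTheory P365T1 P365L P365O P365L.TL Vale.Agent.P365.J376 Matrix Complex
open P365V4.Start77 P365T2.H536 P365H763

/-! ### comparison of the profiles -/

/-- product of the final factors of the stages `< j` -/
noncomputable def thJ (D : V3) (j : ℕ) : ℝ := ∏ k ∈ range j, D.t k

theorem thJ_zero (D : V3) : thJ D 0 = 1 := by simp [thJ]

theorem thJ_succ (D : V3) (j : ℕ) : thJ D (j + 1) = thJ D j * D.t j := by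
  simp [thJ, prod_range_succ]

theorem thJ_pos {D : V3} {ρ : Measure ℝ} (h : D.Ok ρ) {j : ℕ} (hj : j ≤ D.I + 1) :
    0 < thJ D j :=
  prod_pos fun k hk => h.t_pos k (by rw [mem_range] at hk; omega)

theorem thJ_le_one {D : V3} {ρ : Measure ℝ} (h : D.Ok ρ) {j : ℕ} (hj : j ≤ D.I + 1) :
    thJ D j ≤ 1 :=
  prod_le_one (fun k hk => (h.t_pos k (by rw [mem_range] at hk; omega)).le)
    fun k hk => h.t_le k (by rw [mem_range] at hk; omega)

variable {N : ℕ} [NeZero N] {D : V4 N} {ρ : Measure ℝ}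

/-- profile at the start of the stage `j` -/
noncomputable def eJ (D : V4 N) (j : ℕ) (l : Tor N → D.Λ) (x : Tor N) : ℝ :=
  D.us j l x + D.Ws j l x

theorem eJ_succ {j : ℕ} (hj : j < D.I + 1) (l : Tor N → D.Λ) (x : Tor N) :
    eJ D (j + 1) l x = D.us j l x + D.t j * D.Ws j l x := (V4.link hj l x).symm

theorem eJ_pos (h : D.Ok ρ) {j : ℕ} (hj : j ≤ D.I + 1) (l : Tor N → D.Λ) (x : Tor N) :
    0 < eJ D j l x := by
  have h1 := h.us_ge j l x
  have h2 := h.toOk.Ws_nonneg hj l x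
  have h3 := h.b_pos
  unfold eJ
  linarith

theorem eJ_le (h : D.Ok ρ) {j : ℕ} (hj : j ≤ D.I + 1) (l : Tor N → D.Λ) (x : Tor N) :
    eJ D j l x ≤ eJ D 0 l x := by
  induction j with
  | zero => exact le_rfl
  | succ j ih =>
    refine le_trans ?_ (ih (by omega))
    rw [eJ_succ (by omega)]
    have h1 := h.t_le j (by omega)
    have h2 := h.toOk.Ws_nonneg (show j ≤ D.I + 1 by omega) l x
    unfold eJ
    nlinarith

theorem le_eJ (h : D.Ok ρ) {j : ℕ} (hj : j ≤ D.I + 1) (l : Tor N → D.Λ) (x : Tor N) :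
    thJ D.toV3 j * eJ D 0 l x ≤ eJ D j l x := by
  induction j with
  | zero => rw [thJ_zero, one_mul]
  | succ j ih =>
    have h0 := ih (by omega)
    rw [eJ_succ (by omega), thJ_succ]
    have h1 := h.t_le j (by omega)
    have h1' := h.t_pos j (by omega)
    have h2 := h.toOk.Ws_nonneg (show j ≤ D.I + 1 by omega) l x
    have h3 := h.us_nonneg j l x
    have h4 : D.t j * (thJ D.toV3 j * eJ D 0 l x) ≤ D.t j * eJ D j l x :=
      mul_le_mul_of_nonneg_left h0 h1'.le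
    have h5 : D.t j * eJ D j l x = D.t j * D.us j l x + D.t j * D.Ws j l x := by
      unfold eJ
      ring
    have h6 : D.t j * D.us j l x ≤ 1 * D.us j l x := mul_le_mul_of_nonneg_right h1 h3
    nlinarith

theorem eJ_zero_good (h : D.Ok ρ) (l : Tor N → D.Λ) (x : Tor N) (hx : l x = D.good) :
    32 ≤ eJ D 0 l x := by
  have h1 := h.us_nonneg 0 l x
  have h2 : D.Ws 0 l x = 32 := by simp [V3.Ws, hx]
  unfold eJ
  linarith

/-! ### moments, any profile comparable with a strong one -/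

section cmp

variable {A : Matrix (Tor N) (Tor N) ℝ} {Λ : Type} [Fintype Λ] [DecidableEq Λ]
  {p : Λ → ℝ} {good : Λ} {ν : Λ → Measure ℝ} {e e' : (Tor N → Λ) → Tor N → ℝ}
  {κ : Type*} [Fintype κ] {F : κ → Tor N → ℝ} {K θ : ℝ} {Bl : Finset (Tor N)}

/-- energies of two comparable worlds -/
theorem En_le_cmp (hs : A.IsSymm) {l : Tor N → Λ} (he : ∀ x, 0 < e l x) (hθ : 0 < θ)
    (hθ1 : θ ≤ 1) (h1 : ∀ x, θ * e l x ≤ e' l x) (h2 : ∀ x, e' l x ≤ e l x) (E : ℝ)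
    (v f : Tor N → ℝ) :
    En A (WV E (e' l) v) f ≤ (2 / θ) ^ 2 * En A (WV E (e l) v) f := by
  refine En_cmp_abs hs (fun x => ?_) hθ (fun x => ?_) (fun x => ?_) (fun x => ?_) f
  · rw [WV_im2]
    linarith [he x]
  · simp [WV]
  · rw [WV_im2, WV_im2]
    linarith [h1 x]
  · rw [WV_im2, WV_im2]
    have h3 : θ * e' l x ≤ 1 * e l x :=
      mul_le_mul hθ1 (h2 x) (le_trans (mul_nonneg hθ.le (he x).le) (h1 x)) zero_le_one
    linarith

/-- **all moments of the energy of a block, comparable profile** -/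
theorem cmp_pow (hs : A.IsSymm) (hA : ∀ x y, |A x y| ≤ AT N x y)
    (hp : ∀ l, 0 ≤ p l) (hp1 : ∑ l, p l = 1) (h1 : 1 - p good ≤ 1 / 8192)
    (hν : ∀ k, IsProbabilityMeasure (ν k)) (E : ℝ)
    (he : ∀ l x, 0 < e l x) (hbig : ∀ l x, l x = good → 32 ≤ e l x)
    (hθ : 0 < θ) (hθ1 : θ ≤ 1) (hl : ∀ l x, θ * e l x ≤ e' l x) (hu : ∀ l x, e' l x ≤ e l x)
    (hF : ∀ x y, ∑ k, (F k x - F k y) ^ 2 ≤ K ^ 2 * (nrm (x - y) : ℝ) ^ 2)
    (hBl : ∀ k, ∀ x ∉ Bl, ∀ y ∉ Bl, F k x = F k y) (m : ℕ) :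
    AvG p ν E e' (fun _ W => (∑ k, En A W (F k)) ^ (m + 1)) ≤
      ((2 / θ) ^ 2) ^ (m + 1) * (cF m * (2 * K ^ 2 * Bl.card) ^ (m + 1)) := by
  classical
  obtain ⟨B, hB⟩ : ∃ B : (Tor N → Λ) → Finset (Tor N),
      B = fun l => Finset.univ.filter fun x => l x ≠ good := ⟨_, rfl⟩
  have hBm : ∀ l x, x ∈ B l ↔ l x ≠ good := by
    intro l x
    rw [hB]
    simp
  have he' : ∀ l x, 0 < e' l x := fun l x => (mul_pos hθ (he l x)).trans_le (hl l x)
  have him : ∀ l v x, (WV E (e l) v x).im < 0 := by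
    intro l v x
    rw [WV_im2]
    linarith [he l x]
  have him' : ∀ l v x, (WV E (e' l) v x).im < 0 := by
    intro l v x
    rw [WV_im2]
    linarith [he' l x]
  have h0 : ∀ l v, 0 ≤ ∑ k, En A (WV E (e' l) v) (F k) := fun l v =>
    Finset.sum_nonneg fun k _ => P365T1.En_nonneg' (him' l v) _
  have h3 : ∀ l v, ∑ k, En A (WV E (e' l) v) (F k) ≤
      (2 / θ) ^ 2 * (2 * K ^ 2 * ∑ b ∈ Bl, FB1 N b (B l)) := by
    intro l v
    have h4 : ∑ k, En A (WV E (e l) v) (F k) ≤ 2 * K ^ 2 * ∑ b ∈ Bl, FB1 N b (B l) := by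
      refine En_blk hs hA (him l v) (B l) (fun x hx => ?_) hF hBl
      rw [WV_im2, neg_neg]
      refine hbig l x ?_
      by_contra hcon
      exact hx ((hBm l x).2 hcon)
    calc ∑ k, En A (WV E (e' l) v) (F k)
        ≤ ∑ k, (2 / θ) ^ 2 * En A (WV E (e l) v) (F k) :=
          Finset.sum_le_sum fun k _ => En_le_cmp hs (he l) hθ hθ1 (hl l) (hu l) E v (F k)
      _ = (2 / θ) ^ 2 * ∑ k, En A (WV E (e l) v) (F k) := by rw [Finset.mul_sum]
      _ ≤ _ := mul_le_mul_of_nonneg_left h4 (by positivity)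
  refine (Av_le (H := fun l => ((2 / θ) ^ 2 *
    (2 * K ^ 2 * ∑ b ∈ Bl, FB1 N b (B l))) ^ (m + 1)) hp hν E
    (fun l v => pow_nonneg (h0 l v) _)
    (fun l v => pow_le_pow_left₀ (h0 l v) (h3 l v) _)).trans ?_
  calc ∑ l : Tor N → Λ, (∏ x, p (l x)) *
        ((2 / θ) ^ 2 * (2 * K ^ 2 * ∑ b ∈ Bl, FB1 N b (B l))) ^ (m + 1)
      = ((2 / θ) ^ 2) ^ (m + 1) * ∑ l : Tor N → Λ, (∏ x, p (l x)) *
        (2 * K ^ 2 * ∑ b ∈ Bl, FB1 N b (B l)) ^ (m + 1) := by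
        rw [Finset.mul_sum]
        refine Finset.sum_congr rfl fun l _ => ?_
        rw [mul_pow ((2 / θ) ^ 2)]
        ring
    _ ≤ ((2 / θ) ^ 2) ^ (m + 1) * (cF m * (2 * K ^ 2 * Bl.card) ^ (m + 1)) := by
        refine mul_le_mul_of_nonneg_left ?_ (by positivity)
        calc ∑ l : Tor N → Λ, (∏ x, p (l x)) * (2 * K ^ 2 * ∑ b ∈ Bl, FB1 N b (B l)) ^ (m + 1)
            ≤ ∑ l : Tor N → Λ, (∏ x, p (l x)) * ((2 * K ^ 2) ^ (m + 1) *
              ((Bl.card : ℝ) ^ m * ∑ b ∈ Bl, FB1 N b (B l) ^ (m + 1))) := by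
              refine Finset.sum_le_sum fun l _ => mul_le_mul_of_nonneg_left ?_
                (Finset.prod_nonneg fun x _ => hp _)
              rw [mul_pow]
              exact mul_le_mul_of_nonneg_left
                (sum_pow_card Bl _ (fun b _ => FB1_nonneg b (B l)) m) (by positivity)
          _ = (2 * K ^ 2) ^ (m + 1) * ((Bl.card : ℝ) ^ m *
              ∑ b ∈ Bl, ∑ l : Tor N → Λ, (∏ x, p (l x)) * FB1 N b (B l) ^ (m + 1)) := by
              rw [Finset.sum_comm, Finset.mul_sum, Finset.mul_sum]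
              refine Finset.sum_congr rfl fun l _ => ?_
              rw [← Finset.mul_sum]
              ring
          _ ≤ (2 * K ^ 2) ^ (m + 1) * ((Bl.card : ℝ) ^ m * ∑ b ∈ Bl, cF m) := by
              refine mul_le_mul_of_nonneg_left (mul_le_mul_of_nonneg_left
                (Finset.sum_le_sum fun b _ => ?_) (by positivity)) (by positivity)
              exact FB1_pow_sum_labels b p hp hp1 good h1 (fun L x hx => (hBm L x).1 hx) m
          _ = cF m * (2 * K ^ 2 * Bl.card) ^ (m + 1) := by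
              rw [Finset.sum_const, nsmul_eq_mul, mul_pow (2 * K ^ 2) (Bl.card : ℝ)]
              ring

/-- **second moment** -/
theorem cmp_sq (hs : A.IsSymm) (hA : ∀ x y, |A x y| ≤ AT N x y)
    (hp : ∀ l, 0 ≤ p l) (hp1 : ∑ l, p l = 1) (h1 : 1 - p good ≤ 1 / 8192)
    (hν : ∀ k, IsProbabilityMeasure (ν k)) (E : ℝ)
    (he : ∀ l x, 0 < e l x) (hbig : ∀ l x, l x = good → 32 ≤ e l x)
    (hθ : 0 < θ) (hθ1 : θ ≤ 1) (hl : ∀ l x, θ * e l x ≤ e' l x) (hu : ∀ l x, e' l x ≤ e l x)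
    (hF : ∀ x y, ∑ k, (F k x - F k y) ^ 2 ≤ K ^ 2 * (nrm (x - y) : ℝ) ^ 2)
    (hBl : ∀ k, ∀ x ∉ Bl, ∀ y ∉ Bl, F k x = F k y) :
    AvG p ν E e' (fun _ W => (∑ k, En A W (F k)) ^ 2) ≤
      (2 / θ) ^ 4 * (2 * 10 ^ 11 * (K ^ 2 * Bl.card) ^ 2) := by
  refine (cmp_pow hs hA hp hp1 h1 hν E he hbig hθ hθ1 hl hu hF hBl 1).trans ?_
  have h2 := mul_le_mul_of_nonneg_right cF_one
    (sq_nonneg (2 * K ^ 2 * (Bl.card : ℝ)))
  have h3 : 0 ≤ (K ^ 2 * (Bl.card : ℝ)) ^ 2 := sq_nonneg _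
  have h4 : cF 1 * (2 * K ^ 2 * (Bl.card : ℝ)) ^ (1 + 1) ≤
      2 * 10 ^ 11 * (K ^ 2 * (Bl.card : ℝ)) ^ 2 := by
    calc cF 1 * (2 * K ^ 2 * (Bl.card : ℝ)) ^ (1 + 1)
        ≤ 4 * 10 ^ 10 * (2 * K ^ 2 * (Bl.card : ℝ)) ^ 2 := h2
      _ = (16 * 10 ^ 10) * (K ^ 2 * (Bl.card : ℝ)) ^ 2 := by ring
      _ ≤ 2 * 10 ^ 11 * (K ^ 2 * (Bl.card : ℝ)) ^ 2 :=
          mul_le_mul_of_nonneg_right (by norm_num) h3
  calc ((2 / θ) ^ 2) ^ (1 + 1) * (cF 1 * (2 * K ^ 2 * (Bl.card : ℝ)) ^ (1 + 1))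
      ≤ ((2 / θ) ^ 2) ^ (1 + 1) * (2 * 10 ^ 11 * (K ^ 2 * (Bl.card : ℝ)) ^ 2) :=
        mul_le_mul_of_nonneg_left h4 (by positivity)
    _ = _ := by ring

/-- **functions of at most quadratic growth** -/
theorem cmp_theta (hs : A.IsSymm) (hA : ∀ x y, |A x y| ≤ AT N x y)
    (hp : ∀ l, 0 ≤ p l) (hp1 : ∑ l, p l = 1) (h1 : 1 - p good ≤ 1 / 8192)
    (hν : ∀ k, IsProbabilityMeasure (ν k)) (E : ℝ)
    (he : ∀ l x, 0 < e l x) (hbig : ∀ l x, l x = good → 32 ≤ e l x)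
    (hθ : 0 < θ) (hθ1 : θ ≤ 1) (hl : ∀ l x, θ * e l x ≤ e' l x) (hu : ∀ l x, e' l x ≤ e l x)
    (hF : ∀ x y, ∑ k, (F k x - F k y) ^ 2 ≤ K ^ 2 * (nrm (x - y) : ℝ) ^ 2)
    (hBl : ∀ k, ∀ x ∉ Bl, ∀ y ∉ Bl, F k x = F k y)
    {Θ : ℝ → ℝ} {c2 : ℝ} (hc2 : 0 ≤ c2) (hΘ0 : ∀ x, 0 ≤ x → 0 ≤ Θ x)
    (hΘ : ∀ x, 0 ≤ x → Θ x ≤ c2 * x ^ 2) :
    AvG p ν E e' (fun _ W => Θ (∑ k, En A W (F k))) ≤
      c2 * ((2 / θ) ^ 4 * (2 * 10 ^ 11 * (K ^ 2 * Bl.card) ^ 2)) := by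
  classical
  obtain ⟨B, hB⟩ : ∃ B : (Tor N → Λ) → Finset (Tor N),
      B = fun l => Finset.univ.filter fun x => l x ≠ good := ⟨_, rfl⟩
  have hBm : ∀ l x, x ∈ B l ↔ l x ≠ good := by
    intro l x
    rw [hB]
    simp
  have he' : ∀ l x, 0 < e' l x := fun l x => (mul_pos hθ (he l x)).trans_le (hl l x)
  have him : ∀ l v x, (WV E (e l) v x).im < 0 := by
    intro l v x
    rw [WV_im2]
    linarith [he l x]
  have him' : ∀ l v x, (WV E (e' l) v x).im < 0 := by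
    intro l v x
    rw [WV_im2]
    linarith [he' l x]
  have h0 : ∀ l v, 0 ≤ ∑ k, En A (WV E (e' l) v) (F k) := fun l v =>
    Finset.sum_nonneg fun k _ => P365T1.En_nonneg' (him' l v) _
  have h3 : ∀ l v, ∑ k, En A (WV E (e' l) v) (F k) ≤
      (2 / θ) ^ 2 * (2 * K ^ 2 * ∑ b ∈ Bl, FB1 N b (B l)) := by
    intro l v
    have h4 : ∑ k, En A (WV E (e l) v) (F k) ≤ 2 * K ^ 2 * ∑ b ∈ Bl, FB1 N b (B l) := by
      refine En_blk hs hA (him l v) (B l) (fun x hx => ?_) hF hBl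
      rw [WV_im2, neg_neg]
      refine hbig l x ?_
      by_contra hcon
      exact hx ((hBm l x).2 hcon)
    calc ∑ k, En A (WV E (e' l) v) (F k)
        ≤ ∑ k, (2 / θ) ^ 2 * En A (WV E (e l) v) (F k) :=
          Finset.sum_le_sum fun k _ => En_le_cmp hs (he l) hθ hθ1 (hl l) (hu l) E v (F k)
      _ = (2 / θ) ^ 2 * ∑ k, En A (WV E (e l) v) (F k) := by rw [Finset.mul_sum]
      _ ≤ _ := mul_le_mul_of_nonneg_left h4 (by positivity)
  have hB0 : ∀ l, 0 ≤ 2 * K ^ 2 * ∑ b ∈ Bl, FB1 N b (B l) := fun l =>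
    mul_nonneg (by positivity) (Finset.sum_nonneg fun b _ => FB1_nonneg b (B l))
  refine (Av_le (H := fun l => c2 * ((2 / θ) ^ 4 *
    (2 * K ^ 2 * ∑ b ∈ Bl, FB1 N b (B l)) ^ 2)) hp hν E
    (fun l v => hΘ0 _ (h0 l v)) (fun l v => ?_)).trans ?_
  · refine (hΘ _ (h0 l v)).trans (mul_le_mul_of_nonneg_left ?_ hc2)
    refine (pow_le_pow_left₀ (h0 l v) (h3 l v) 2).trans (le_of_eq ?_)
    ring
  · calc ∑ l : Tor N → Λ, (∏ x, p (l x)) *
          (c2 * ((2 / θ) ^ 4 * (2 * K ^ 2 * ∑ b ∈ Bl, FB1 N b (B l)) ^ 2))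
        = c2 * ((2 / θ) ^ 4 * ∑ l : Tor N → Λ, (∏ x, p (l x)) *
          (2 * K ^ 2 * ∑ b ∈ Bl, FB1 N b (B l)) ^ 2) := by
          rw [Finset.mul_sum, Finset.mul_sum]
          refine Finset.sum_congr rfl fun l _ => ?_
          ring
      _ ≤ c2 * ((2 / θ) ^ 4 * (2 * 10 ^ 11 * (K ^ 2 * Bl.card) ^ 2)) := by
          refine mul_le_mul_of_nonneg_left (mul_le_mul_of_nonneg_left ?_ (by positivity)) hc2
          calc ∑ l : Tor N → Λ, (∏ x, p (l x)) * (2 * K ^ 2 * ∑ b ∈ Bl, FB1 N b (B l)) ^ 2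
              ≤ ∑ l : Tor N → Λ, (∏ x, p (l x)) * ((2 * K ^ 2) ^ 2 *
                ((Bl.card : ℝ) ^ 1 * ∑ b ∈ Bl, FB1 N b (B l) ^ (1 + 1))) := by
                refine Finset.sum_le_sum fun l _ => mul_le_mul_of_nonneg_left ?_
                  (Finset.prod_nonneg fun x _ => hp _)
                rw [mul_pow]
                exact mul_le_mul_of_nonneg_left
                  (sum_pow_card Bl _ (fun b _ => FB1_nonneg b (B l)) 1) (by positivity)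
            _ = (2 * K ^ 2) ^ 2 * ((Bl.card : ℝ) ^ 1 *
                ∑ b ∈ Bl, ∑ l : Tor N → Λ, (∏ x, p (l x)) * FB1 N b (B l) ^ (1 + 1)) := by
                rw [Finset.sum_comm, Finset.mul_sum, Finset.mul_sum]
                refine Finset.sum_congr rfl fun l _ => ?_
                rw [← Finset.mul_sum]
                ring
            _ ≤ (2 * K ^ 2) ^ 2 * ((Bl.card : ℝ) ^ 1 * ∑ b ∈ Bl, cF 1) := by
                refine mul_le_mul_of_nonneg_left (mul_le_mul_of_nonneg_left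
                  (Finset.sum_le_sum fun b _ => ?_) (by positivity)) (by positivity)
                exact FB1_pow_sum_labels b p hp hp1 good h1 (fun L x hx => (hBm L x).1 hx) 1
            _ = cF 1 * (4 * (K ^ 2 * (Bl.card : ℝ)) ^ 2) := by
                rw [Finset.sum_const, nsmul_eq_mul]
                ring
            _ ≤ 4 * 10 ^ 10 * (4 * (K ^ 2 * (Bl.card : ℝ)) ^ 2) :=
                mul_le_mul_of_nonneg_right cF_one (by positivity)
            _ ≤ _ := by nlinarith [sq_nonneg (K ^ 2 * (Bl.card : ℝ))]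

end cmp

/-! ### the stages of the chain -/

section stages

variable {A : Matrix (Tor N) (Tor N) ℝ} {κ : Type*} [Fintype κ] {F : κ → Tor N → ℝ} {K : ℝ}
  {Bl : Finset (Tor N)}

/-- **second moment of the energy of a block at the start of the stage `j`** -/
theorem stage_sq (h : D.Ok ρ) {j : ℕ} (hj : j ≤ D.I + 1) (hs : A.IsSymm)
    (hA : ∀ x y, |A x y| ≤ AT N x y) (E : ℝ)
    (hF : ∀ x y, ∑ k, (F k x - F k y) ^ 2 ≤ K ^ 2 * (nrm (x - y) : ℝ) ^ 2)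
    (hBl : ∀ k, ∀ x ∉ Bl, ∀ y ∉ Bl, F k x = F k y) :
    AvG D.p D.ν E (eJ D j) (fun _ W => (∑ k, En A W (F k)) ^ 2) ≤
      (2 / thJ D.toV3 j) ^ 4 * (2 * 10 ^ 11 * (K ^ 2 * Bl.card) ^ 2) :=
  cmp_sq (good := D.good) hs hA h.p_nonneg h.p_sum h.p_good h.prob E
    (fun l x => eJ_pos h (Nat.zero_le _) l x) (fun l x hx => eJ_zero_good h l x hx)
    (thJ_pos h.toOk hj) (thJ_le_one h.toOk hj) (fun l x => le_eJ h hj l x)
    (fun l x => eJ_le h hj l x) hF hBl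

/-- **functions of at most quadratic growth at the start of the stage `j`** -/
theorem stage_theta (h : D.Ok ρ) {j : ℕ} (hj : j ≤ D.I + 1) (hs : A.IsSymm)
    (hA : ∀ x y, |A x y| ≤ AT N x y) (E : ℝ)
    (hF : ∀ x y, ∑ k, (F k x - F k y) ^ 2 ≤ K ^ 2 * (nrm (x - y) : ℝ) ^ 2)
    (hBl : ∀ k, ∀ x ∉ Bl, ∀ y ∉ Bl, F k x = F k y)
    {Θ : ℝ → ℝ} {c2 : ℝ} (hc2 : 0 ≤ c2) (hΘ0 : ∀ x, 0 ≤ x → 0 ≤ Θ x)
    (hΘ : ∀ x, 0 ≤ x → Θ x ≤ c2 * x ^ 2) :
    AvG D.p D.ν E (eJ D j) (fun _ W => Θ (∑ k, En A W (F k))) ≤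
      c2 * ((2 / thJ D.toV3 j) ^ 4 * (2 * 10 ^ 11 * (K ^ 2 * Bl.card) ^ 2)) :=
  cmp_theta (good := D.good) hs hA h.p_nonneg h.p_sum h.p_good h.prob E
    (fun l x => eJ_pos h (Nat.zero_le _) l x) (fun l x hx => eJ_zero_good h l x hx)
    (thJ_pos h.toOk hj) (thJ_le_one h.toOk hj) (fun l x => le_eJ h hj l x)
    (fun l x => eJ_le h hj l x) hF hBl hc2 hΘ0 hΘ

end stages

end P365T2.H168
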